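import Vale.Agent.P259.Final.CG
import Vale.Agent.P259.Real.Fat

/-! Fat realisations of semi-simplicial spaces with discrete or compactly generated levels are
compactly generated. -/

namespace Vale.Agent.P259.Final

open Vale.Agent.P259.Real

instance cg_fat (X : SSpace.{0}) [∀ p, UCompactlyGeneratedSpace.{0} (X.obj p)] :
    UCompactlyGeneratedSpace.{0} (Fat X) :=
  inferInstanceAs (UCompactlyGeneratedSpace.{0} (Quot (Glue X)))

example (X : SSpace.{0}) [∀ p, DiscreteTopology (X.obj p)] :
    UCompactlyGeneratedSpace.{0} (Fat X) := inferInstance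

end Vale.Agent.P259.Final
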