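import Mathlib.CategoryTheory.Localization.LocalizerMorphism

/-!
# Equivalences of localizations from zigzags

A functor preserving weak equivalences induces an equivalence between the localizations as soon
as there is a functor in the opposite direction, inverting weak equivalences after localization,
which is inverse to it up to natural zigzags of weak equivalences.
-/

open CategoryTheory

namespace Vale.Agent.P259.Final

variable {C₁ C₂ : Type*} [Category* C₁] [Category* C₂]
  {W₁ : MorphismProperty C₁} {W₂ : MorphismProperty C₂}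

/-- A natural transformation whose components lie in `W` becomes an isomorphism after
composition with `W.Q`. -/
noncomputable def whiskerQIso {A : Type*} [Category* A] {W : MorphismProperty C₁} {F G : A ⥤ C₁}
    (α : F ⟶ G) (hα : ∀ a, W (α.app a)) : F ⋙ W.Q ≅ G ⋙ W.Q :=
  haveI : ∀ a, IsIso ((Functor.whiskerRight α W.Q).app a) := fun a =>
    Localization.inverts W.Q W _ (hα a)
  haveI := NatIso.isIso_of_isIso_app (Functor.whiskerRight α W.Q)
  asIso (Functor.whiskerRight α W.Q)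

/-- The localisation lemma: `Φ` has, up to natural maps in the classes of weak equivalences,
the inverse `Ψ` (with a zigzag `𝟭 ← Z → Ψ ⋙ Φ` and a map `Φ ⋙ Ψ → 𝟭`), so it induces an
equivalence between the localizations. -/
theorem isEquivalence_localizedFunctor (Φ : LocalizerMorphism W₁ W₂) (Ψ : C₂ ⥤ C₁)
    (hΨ : W₂.IsInvertedBy (Ψ ⋙ W₁.Q)) (Z : C₂ ⥤ C₂) (p : Z ⟶ 𝟭 C₂)
    (q : Z ⟶ Ψ ⋙ Φ.functor) (r : Φ.functor ⋙ Ψ ⟶ 𝟭 C₁) (hp : ∀ X, W₂ (p.app X))
    (hq : ∀ X, W₂ (q.app X)) (hr : ∀ Y, W₁ (r.app Y)) :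
    (Φ.localizedFunctor W₁.Q W₂.Q).IsEquivalence :=
  Localization.isEquivalence W₁.Q W₁ W₂.Q W₂ (Φ.functor ⋙ W₂.Q)
    (Φ.localizedFunctor W₁.Q W₂.Q) (Ψ ⋙ W₁.Q) (Localization.lift (Ψ ⋙ W₁.Q) hΨ W₂.Q)
    (Functor.associator _ _ _ ≪≫
      Functor.isoWhiskerLeft _ (Localization.fac (Ψ ⋙ W₁.Q) hΨ W₂.Q) ≪≫
      (Functor.associator _ _ _).symm ≪≫ whiskerQIso r hr ≪≫ Functor.leftUnitor _)
    (Functor.associator _ _ _ ≪≫
      Functor.isoWhiskerLeft _ (Localization.Lifting.iso W₁.Q W₁ (Φ.functor ⋙ W₂.Q) _) ≪≫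
      (Functor.associator _ _ _).symm ≪≫ (whiskerQIso q hq).symm ≪≫ whiskerQIso p hp ≪≫
      Functor.leftUnitor _)

end Vale.Agent.P259.Final
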