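import Vale.Agent.P259.Defs
import Vale.Agent.P259.Final.Localisation

/-!
# P259: assembly

Two-out-of-three for weak equivalences of `C`-∞-groupoids, and the deduction of the homotopy
hypothesis from a functor in the opposite direction together with natural weak equivalences.
-/

noncomputable section

open CategoryTheory Function

namespace Vale.Agent.P259.Final

variable {C : GlobExt}

theorem π₀Map_comp {X Y Z : Gpd C} (f : X ⟶ Y) (g : Y ⟶ Z) :
    Gpd.π₀Map (f ≫ g) = Gpd.π₀Map g ∘ Gpd.π₀Map f := by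
  funext a
  induction a using Quot.ind
  rfl

theorem πMap_comp {X Y Z : Gpd C} (f : X ⟶ Y) (g : Y ⟶ Z) (κ : IdLift C) (n : ℕ)
    (x : X.cells 0) :
    (Gpd.πMap (f ≫ g) κ n x : X.π κ n x → Z.π κ n (Gpd.app g (Gpd.app f x))) =
      Gpd.πMap g κ n (Gpd.app f x) ∘ Gpd.πMap f κ n x := by
  funext a
  induction a using Quot.ind
  rfl

theorem weqGpd_comp (κ : IdLift C) : (weqGpd κ).IsStableUnderComposition where
  comp_mem {X Y Z} f g hf hg := by
    refine ⟨?_, fun n x => ?_⟩
    · rw [π₀Map_comp]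
      exact hg.1.comp hf.1
    · exact (πMap_comp f g κ n x).symm ▸ (hg.2 n _).comp (hf.2 n x)

theorem weqGpd_left (κ : IdLift C) {X Y Z : Gpd C} (f : X ⟶ Y) (g : Y ⟶ Z) (hg : weqGpd κ g)
    (hfg : weqGpd κ (f ≫ g)) : weqGpd κ f := by
  refine ⟨(Bijective.of_comp_iff' hg.1 _).1 ?_, fun n x => (Bijective.of_comp_iff' (hg.2 n _) _).1 ?_⟩
  · rw [← π₀Map_comp]
    exact hfg.1
  · rw [← πMap_comp]
    exact hfg.2 n x

/-- Right cancellation needs no change of base point when `f` is surjective on `0`-cells. -/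
theorem weqGpd_right (κ : IdLift C) {X Y Z : Gpd C} (f : X ⟶ Y) (g : Y ⟶ Z)
    (hsurj : Surjective (Gpd.app f (n := 0))) (hf : weqGpd κ f)
    (hfg : weqGpd κ (f ≫ g)) : weqGpd κ g := by
  refine ⟨(Bijective.of_comp_iff _ hf.1).1 ?_, fun n y => ?_⟩
  · rw [← π₀Map_comp]
    exact hfg.1
  · obtain ⟨x, rfl⟩ := hsurj y
    refine (Bijective.of_comp_iff _ (hf.2 n x)).1 ?_
    rw [← πMap_comp]
    exact hfg.2 n x

/-- What the topological and combinatorial parts have to supply for a disc functor `D`: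
`Π_∞` detects weak equivalences, and has an inverse `G` up to natural weak equivalences. -/
structure Inverse (D : DiscFunctor C) (κ : IdLift C) where
  /-- `Π_∞` preserves weak equivalences. -/
  preserves : ∀ {A B : Space} (f : A ⟶ B), weqTop f → weqGpd κ ((fundGpd D).map f)
  /-- `Π_∞` reflects weak equivalences. -/
  reflects : ∀ {A B : Space} (f : A ⟶ B), weqGpd κ ((fundGpd D).map f) → weqTop f
  /-- The functor in the opposite direction. -/
  G : Gpd C ⥤ Space
  /-- The middle of the zigzag. -/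
  Z : Gpd C ⥤ Gpd C
  /-- The left leg. -/
  p : Z ⟶ 𝟭 (Gpd C)
  /-- The right leg. -/
  q : Z ⟶ G ⋙ fundGpd D
  /-- The evaluation. -/
  r : fundGpd D ⋙ G ⟶ 𝟭 Space
  p_weq : ∀ X, weqGpd κ (p.app X)
  q_weq : ∀ X, weqGpd κ (q.app X)
  q_surjective : ∀ X, Surjective (Gpd.app (q.app X) (n := 0))
  r_weq : ∀ Y, weqTop (r.app Y)

/-- `G` preserves weak equivalences. -/
theorem Inverse.G_preserves {D : DiscFunctor C} {κ : IdLift C} (I : Inverse D κ)
    {X Y : Gpd C} (f : X ⟶ Y) (hf : weqGpd κ f) : weqTop (I.G.map f) := by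
  apply I.reflects
  have hcomp := weqGpd_comp κ
  have hZ : weqGpd κ (I.Z.map f) := by
    refine weqGpd_left κ _ (I.p.app Y) (I.p_weq Y) ?_
    rw [I.p.naturality]
    exact hcomp.comp_mem _ _ (I.p_weq X) hf
  refine weqGpd_right κ (I.q.app X) _ (I.q_surjective X) (I.q_weq X) ?_
  rw [← Functor.comp_map, ← I.q.naturality]
  exact hcomp.comp_mem _ _ hZ (I.q_weq Y)

/-- The homotopy hypothesis for `D` follows from such an inverse. -/
theorem Inverse.inducesEquivalence {D : DiscFunctor C} {κ : IdLift C} (I : Inverse D κ) :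
    InducesEquivalence D κ := by
  refine ⟨fun A B f hf => I.preserves f hf, ?_⟩
  exact isEquivalence_localizedFunctor _ I.G
    (fun X Y f hf => Localization.inverts weqTop.Q weqTop _ (I.G_preserves f hf))
    I.Z I.p I.q I.r I.p_weq I.q_weq I.r_weq

/-- The question, from a disc functor with an inverse for every coherator. -/
theorem Q1_of_inverse
    (h : ∀ C : GlobExt, IsCoherator C →
      ∃ D : DiscFunctor C, ∀ κ : IdLift C, Nonempty (Inverse D κ)) : Q1 := fun C hC => by
  obtain ⟨D, hD⟩ := h C hC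
  exact ⟨D, fun κ => (hD κ).some.inducesEquivalence⟩

end Vale.Agent.P259.Final
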