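import Vale.Agent.P259.Disc.Functor
import Vale.Agent.P259.Disc.Rel
import Vale.Agent.P259.Homotopy.Based

/-!
# The cells of a fundamental ∞-groupoid

The cells of `Π_∞ Y` are the maps of discs into `Y`; the homotopy sets of `Π_∞ Y` are those of `Y`.
-/

noncomputable section

open CategoryTheory Function unitInterval
open scoped Topology Topology.Homotopy

namespace Vale.Agent.P259.Final

open Disc

variable {C : GlobExt} (a : Action C)

/-- The fundamental ∞-groupoid of a realisation. -/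
abbrev Pi : Space ⥤ Gpd C := fundGpd a.discFunctor

variable {a} {Y Y' : Space}

/-- A cell as a map of the disc. -/
def toDisc {n : ℕ} (c : ((Pi a).obj Y).cells n) : C(Dn n, Y) :=
  (show realSpace (disc n) ⟶ Y from c).hom.hom.comp (rmk (disc n) 0)

/-- A map of the disc as a cell. -/
def ofDisc {n : ℕ} (F : C(Dn n, Y)) : ((Pi a).obj Y).cells n :=
  show realSpace (disc n) ⟶ Y from
    ConcreteCategory.ofHom (F.comp ⟨discHomeo n, (discHomeo n).continuous⟩)

@[simp] theorem toDisc_ofDisc {n : ℕ} (F : C(Dn n, Y)) :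
    toDisc (ofDisc (a := a) F) = F := rfl

theorem toDisc_injective {n : ℕ} {c d : ((Pi a).obj Y).cells n} (h : toDisc c = toDisc d) :
    c = d := by
  show (show realSpace (disc n) ⟶ Y from c) = (show realSpace (disc n) ⟶ Y from d)
  ext p
  obtain ⟨w, rfl⟩ := (discHomeo n).symm.surjective p
  exact DFunLike.congr_fun h w

theorem toDisc_s {n : ℕ} (c : ((Pi a).obj Y).cells (n + 1)) (x : Dn n) :
    toDisc (((Pi a).obj Y).s c) x = toDisc c (source x) := by
  show (show realSpace (disc (n + 1)) ⟶ Y from c).hom.hom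
    (a.map (C.ι (P259.src n)) (rmk (disc n) 0 x)) = _
  rw [a.map_ι, rmap_src]
  rfl

theorem toDisc_t {n : ℕ} (c : ((Pi a).obj Y).cells (n + 1)) (x : Dn n) :
    toDisc (((Pi a).obj Y).t c) x = toDisc c (target x) := by
  show (show realSpace (disc (n + 1)) ⟶ Y from c).hom.hom
    (a.map (C.ι (P259.tgt n)) (rmk (disc n) 0 x)) = _
  rw [a.map_ι, rmap_tgt]
  rfl

theorem toDisc_app (f : Y ⟶ Y') {n : ℕ} (c : ((Pi a).obj Y).cells n) :
    toDisc (Gpd.app ((Pi a).map f) c) = f.hom.hom.comp (toDisc c) := rfl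

/-- The point of a zero cell. -/
def pt (c : ((Pi a).obj Y).cells 0) : Y := toDisc c default

theorem toDisc_zero (c : ((Pi a).obj Y).cells 0) (x : Dn 0) : toDisc c x = pt c :=
  congrArg (toDisc c) (Subsingleton.elim _ _)

theorem pt_app (f : Y ⟶ Y') (c : ((Pi a).obj Y).cells 0) :
    pt (Gpd.app ((Pi a).map f) c) = f.hom.hom (pt c) := rfl

theorem toDisc_idCell (κ : IdLift C) (c : ((Pi a).obj Y).cells 0) :
    ∀ (n : ℕ) (x : Dn n), toDisc (((Pi a).obj Y).idCell κ c n) x = pt c
  | 0, x => toDisc_zero c x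
  | n + 1, x => by
    show (show realSpace (disc n) ⟶ Y from ((Pi a).obj Y).idCell κ c n).hom.hom
      (a.map (κ n).1 (rmk (disc (n + 1)) 0 x)) = _
    obtain ⟨w, hw⟩ := (discHomeo n).symm.surjective (a.map (κ n).1 (rmk (disc (n + 1)) 0 x))
    rw [← hw]
    exact toDisc_idCell κ c n w

theorem connected_iff {n : ℕ} (c d : ((Pi a).obj Y).cells n) :
    ((Pi a).obj Y).Connected c d ↔ Disc.Conn (toDisc c) (toDisc d) := by
  constructor
  · rintro ⟨h, rfl, rfl⟩
    exact ⟨toDisc h, fun x => (toDisc_s h x).symm, fun x => (toDisc_t h x).symm⟩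
  · rintro ⟨W, hs, ht⟩
    refine ⟨ofDisc W, toDisc_injective (ContinuousMap.ext fun x => ?_),
      toDisc_injective (ContinuousMap.ext fun x => ?_)⟩
    · rw [toDisc_s, toDisc_ofDisc, hs]
    · rw [toDisc_t, toDisc_ofDisc, ht]

theorem connected_iff_hRel {n : ℕ} (c d : ((Pi a).obj Y).cells n) :
    ((Pi a).obj Y).Connected c d ↔ HRel (toDisc c) (toDisc d) :=
  (connected_iff c d).trans conn_iff_hRel

theorem connected_zero_iff (c d : ((Pi a).obj Y).cells 0) :
    ((Pi a).obj Y).Connected c d ↔ Joined (pt c) (pt d) := by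
  rw [connected_iff_hRel]
  constructor
  · rintro ⟨H, h0, h1, -⟩
    exact ⟨⟨H.comp ((ContinuousMap.const I default).prodMk (ContinuousMap.id I)), h0 _, h1 _⟩⟩
  · rintro ⟨γ⟩
    exact ⟨γ.toContinuousMap.comp ContinuousMap.snd, fun x => γ.source.trans (toDisc_zero c x).symm,
      fun x => γ.target.trans (toDisc_zero d x).symm, fun z => isEmptyElim z⟩

/-- Loops restrict to the constant map of the sphere. -/
theorem toDisc_loop {κ : IdLift C} {n : ℕ} {c : ((Pi a).obj Y).cells 0}
    (p : ((Pi a).obj Y).Loops κ n c) (z : Sn (n + 1)) : toDisc p.1 (Disc.incl z) = pt c := by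
  rcases mem_hemisphere z with ⟨x, rfl⟩ | ⟨x, rfl⟩
  · show toDisc p.1 (source x) = _
    rw [← toDisc_s, p.2.1, toDisc_idCell]
  · show toDisc p.1 (target x) = _
    rw [← toDisc_t, p.2.2, toDisc_idCell]

/-- A disc with constant boundary as a loop. -/
def ofDiscLoop {κ : IdLift C} {n : ℕ} {c : ((Pi a).obj Y).cells 0} (F : C(Dn (n + 1), Y))
    (hF : ∀ z, F (Disc.incl z) = pt c) : ((Pi a).obj Y).Loops κ n c :=
  ⟨ofDisc F,
    toDisc_injective (ContinuousMap.ext fun x => by
      rw [toDisc_s, toDisc_ofDisc, toDisc_idCell]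
      exact hF (sourceS x)),
    toDisc_injective (ContinuousMap.ext fun x => by
      rw [toDisc_t, toDisc_ofDisc, toDisc_idCell]
      exact hF (targetS x))⟩

theorem exists_incl_of_mem {n : ℕ} {x : Dn n} (h : x ∈ Hpy.bd n) : ∃ z, Disc.incl z = x :=
  ⟨⟨x.1, mem_sphere_zero_iff_norm.2 h⟩, rfl⟩

theorem incl_mem_bd {n : ℕ} (z : Sn n) : Disc.incl z ∈ Hpy.bd n := mem_sphere_zero_iff_norm.1 z.2

/-- The cube as a disc. -/
def fromCube (n : ℕ) : C((Fin n → I), Dn n) :=
  ⟨(Hpy.discCube n).symm, (Hpy.discCube n).symm.continuous⟩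

/-- The disc as a cube. -/
def toCube (n : ℕ) : C(Dn n, (Fin n → I)) := ⟨Hpy.discCube n, (Hpy.discCube n).continuous⟩

theorem fromCube_toCube {n : ℕ} (x : Dn n) : fromCube n (toCube n x) = x :=
  (Hpy.discCube n).symm_apply_apply x

theorem fromCube_bd {n : ℕ} {y : Fin n → I} (h : y ∈ Cube.boundary (Fin n)) :
    ∃ z, Disc.incl z = fromCube n y :=
  exists_incl_of_mem ((Hpy.symm_mem_bd_iff n y).2 h)

theorem toCube_bd {n : ℕ} (z : Sn n) : toCube n (Disc.incl z) ∈ Cube.boundary (Fin n) :=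
  (Hpy.mem_bd_iff n _).1 (incl_mem_bd z)

/-- The cube loop of a loop. -/
def genLoop {κ : IdLift C} {n : ℕ} {c : ((Pi a).obj Y).cells 0}
    (p : ((Pi a).obj Y).Loops κ n c) : Ω^ (Fin (n + 1)) Y (pt c) :=
  ⟨(toDisc p.1).comp (fromCube (n + 1)), fun y hy => by
    obtain ⟨z, hz⟩ := fromCube_bd hy
    show toDisc p.1 (fromCube (n + 1) y) = _
    rw [← hz, toDisc_loop]⟩

theorem genLoop_homotopic {κ : IdLift C} {n : ℕ} {c : ((Pi a).obj Y).cells 0}
    (p q : ((Pi a).obj Y).Loops κ n c) :
    GenLoop.Homotopic (genLoop p) (genLoop q) ↔ ((Pi a).obj Y).Connected p.1 q.1 := by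
  rw [connected_iff_hRel]
  constructor
  · rintro ⟨H⟩
    refine ⟨H.toHomotopy.toContinuousMap.comp
      (ContinuousMap.snd.prodMk ((toCube (n + 1)).comp ContinuousMap.fst)),
      fun x => ?_, fun x => ?_, fun z t => ?_⟩
    · exact (H.apply_zero _).trans (congrArg (toDisc p.1) (fromCube_toCube x))
    · exact (H.apply_one _).trans (congrArg (toDisc q.1) (fromCube_toCube x))
    · exact (H.eq_fst t (toCube_bd z)).trans (congrArg (toDisc p.1) (fromCube_toCube _))
  · rintro ⟨H, h0, h1, hb⟩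
    exact ⟨{ toContinuousMap := H.comp (((fromCube (n + 1)).comp ContinuousMap.snd).prodMk
              ContinuousMap.fst)
             map_zero_left := fun y => h0 _
             map_one_left := fun y => h1 _
             prop' := fun t y hy => by
              obtain ⟨z, hz⟩ := fromCube_bd hy
              show H (fromCube (n + 1) y, t) = toDisc p.1 (fromCube (n + 1) y)
              rw [← hz, hb] }⟩

/-- The path component of a class of zero cells. -/
def pi0Hom : ((Pi a).obj Y).π₀ → ZerothHomotopy Y :=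
  Quot.lift (fun c => Quotient.mk _ (pt c))
    fun c d h => Quotient.sound ((connected_zero_iff c d).1 h)

theorem pi0Hom_bijective : Bijective (pi0Hom (a := a) (Y := Y)) := by
  refine ⟨fun c d h => ?_, fun q => ?_⟩
  · induction c using Quot.ind with | _ c => ?_
    induction d using Quot.ind with | _ d => ?_
    exact Quot.sound ((connected_zero_iff c d).2 (Quotient.exact h))
  · induction q using Quotient.inductionOn with | _ y => ?_
    exact ⟨Quot.mk _ (ofDisc (ContinuousMap.const _ y)), rfl⟩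

/-- The homotopy class of a class of loops. -/
def piHom (κ : IdLift C) (n : ℕ) (c : ((Pi a).obj Y).cells 0) :
    ((Pi a).obj Y).π κ n c → π_ (n + 1) Y (pt c) :=
  Quot.lift (fun p => Quotient.mk _ (genLoop p))
    fun p q h => Quotient.sound ((genLoop_homotopic p q).2 h)

theorem piHom_bijective (κ : IdLift C) (n : ℕ) (c : ((Pi a).obj Y).cells 0) :
    Bijective (piHom κ n c) := by
  refine ⟨fun p q h => ?_, fun q => ?_⟩
  · induction p using Quot.ind with | _ p => ?_
    induction q using Quot.ind with | _ q => ?_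
    exact Quot.sound ((genLoop_homotopic p q).1 (Quotient.exact h))
  · induction q using Quotient.inductionOn with | _ g => ?_
    refine ⟨Quot.mk _ (ofDiscLoop (g.1.comp (toCube (n + 1))) fun z => g.2 _ (toCube_bd z)),
      congrArg (Quotient.mk _) (Subtype.ext (ContinuousMap.ext fun y => ?_))⟩
    show g.1 (Hpy.discCube (n + 1) ((Hpy.discCube (n + 1)).symm y)) = _
    rw [Homeomorph.apply_symm_apply]

theorem connected_of_class_eq {κ : IdLift C} {n : ℕ} {c : ((Pi a).obj Y).cells 0}
    {p q : ((Pi a).obj Y).Loops κ n c}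
    (h : (Quot.mk _ p : ((Pi a).obj Y).π κ n c) = Quot.mk _ q) :
    ((Pi a).obj Y).Connected p.1 q.1 :=
  (genLoop_homotopic p q).1 (Quotient.exact (congrArg (piHom κ n c) h))

theorem pi0Map_hom (f : Y ⟶ Y') :
    pi0Hom ∘ Gpd.π₀Map ((Pi a).map f) = pi0Map f.hom.hom ∘ pi0Hom := by
  funext c
  induction c using Quot.ind
  rfl

theorem piMap_hom (f : Y ⟶ Y') (κ : IdLift C) (n : ℕ) (c : ((Pi a).obj Y).cells 0) :
    (piHom κ n (Gpd.app ((Pi a).map f) c) ∘ Gpd.πMap ((Pi a).map f) κ n c :
      ((Pi a).obj Y).π κ n c → π_ (n + 1) Y' (f.hom.hom (pt c))) =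
      piMap f.hom.hom (n + 1) (pt c) ∘ piHom κ n c := by
  funext p
  induction p using Quot.ind
  rfl

/-- `Π_∞` preserves weak equivalences. -/
theorem Pi_preserves (κ : IdLift C) (f : Y ⟶ Y') (hf : weqTop f) :
    weqGpd κ ((Pi a).map f) := by
  refine ⟨(Bijective.of_comp_iff' pi0Hom_bijective _).1 ?_, fun n c => ?_⟩
  · rw [pi0Map_hom]
    exact hf.1.comp pi0Hom_bijective
  · refine (Bijective.of_comp_iff' (piHom_bijective κ n _) _).1 ?_
    exact (piMap_hom f κ n c).symm ▸ (hf.2 n (pt c)).comp (piHom_bijective κ n c)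

/-- `Π_∞` reflects weak equivalences. -/
theorem Pi_reflects (κ : IdLift C) (f : Y ⟶ Y') (hf : weqGpd κ ((Pi a).map f)) : weqTop f := by
  refine ⟨(Bijective.of_comp_iff _ (pi0Hom_bijective (a := a) (Y := Y))).1 ?_, fun n y => ?_⟩
  · rw [← pi0Map_hom]
    exact pi0Hom_bijective.comp hf.1
  · have := (piHom_bijective κ n _).comp (hf.2 n (ofDisc (ContinuousMap.const _ y)))
    refine (Bijective.of_comp_iff _ (piHom_bijective κ n
      (ofDisc (a := a) (ContinuousMap.const _ y)))).1 ?_
    exact (piMap_hom f κ n _) ▸ this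

end Vale.Agent.P259.Final
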