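import Mathlib.Topology.Category.CompactlyGenerated
import Mathlib.Topology.Category.TopCat.Limits.Basic
import Mathlib.Topology.CompactOpen

/-!
# Compactly generated spaces

Closure properties used for discs, their gluings, cylinders and realisations: final topologies,
colimits in `TopCat`, and products with compact Hausdorff spaces.
-/

open CategoryTheory Topology

namespace Vale.Agent.P259.Final

/-- A space whose closed sets are detected by a family of maps out of compactly generated spaces
is compactly generated. -/
theorem cg_of_family {X : Type} [TopologicalSpace X] {ι : Type*} {K : ι → Type}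
    [∀ i, TopologicalSpace (K i)] [∀ i, UCompactlyGeneratedSpace.{0} (K i)]
    (f : ∀ i, C(K i, X)) (h : ∀ s : Set X, (∀ i, IsClosed (f i ⁻¹' s)) → IsClosed s) :
    UCompactlyGeneratedSpace.{0} X :=
  uCompactlyGeneratedSpace_of_isClosed fun s hs => h s fun i =>
    UCompactlyGeneratedSpace.isClosed fun S g => hs S ((f i).comp g)

/-- A quotient of a compactly generated space is compactly generated. -/
theorem cg_of_isQuotientMap {X Y : Type} [TopologicalSpace X] [TopologicalSpace Y]
    [UCompactlyGeneratedSpace.{0} X] {f : X → Y} (hf : IsQuotientMap f) :
    UCompactlyGeneratedSpace.{0} Y :=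
  uCompactlyGeneratedSpace_of_coinduced hf.continuous hf.eq_coinduced

instance cg_quot {X : Type} [TopologicalSpace X] [UCompactlyGeneratedSpace.{0} X]
    (R : X → X → Prop) : UCompactlyGeneratedSpace.{0} (Quot R) :=
  cg_of_isQuotientMap (f := Quot.mk R) isQuotientMap_quot_mk

/-- A colimit in `TopCat` of compactly generated spaces is compactly generated. -/
theorem cg_of_isColimit {J : Type} [Category J] {F : J ⥤ TopCat.{0}} {c : Limits.Cocone F}
    (hc : Limits.IsColimit c) (h : ∀ j, UCompactlyGeneratedSpace.{0} (F.obj j)) :
    UCompactlyGeneratedSpace.{0} c.pt :=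
  haveI := h
  cg_of_family (fun j => (c.ι.app j).hom) fun s hs => (TopCat.isClosed_iff_of_isColimit c hc s).2 hs

/-- The product of a compactly generated space with a compact Hausdorff space is compactly
generated. -/
instance cg_prod {X L : Type} [TopologicalSpace X] [UCompactlyGeneratedSpace.{0} X]
    [TopologicalSpace L] [CompactSpace L] [T2Space L] :
    UCompactlyGeneratedSpace.{0} (X × L) := by
  refine uCompactlyGeneratedSpace_of_continuous_maps fun {Y} _ f h => ?_
  have hslice : ∀ x, Continuous fun l => f (x, l) := fun x =>
    h (CompHaus.of L) ⟨fun l => (x, l), Continuous.prodMk_right x⟩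
  let g : X → C(L, Y) := fun x => ⟨fun l => f (x, l), hslice x⟩
  have hg : Continuous g := continuous_from_uCompactlyGeneratedSpace g fun S k =>
    ContinuousMap.continuous_of_continuous_uncurry _
      (h (CompHaus.of (S.toTop × L))
        ⟨fun p : S.toTop × L => (k p.1, p.2), (k.continuous.comp continuous_fst).prodMk continuous_snd⟩)
  exact ContinuousMap.continuous_uncurry_of_continuous ⟨g, hg⟩

/-- The product of a compact Hausdorff space with a compactly generated space. -/
theorem cg_prod' {X L : Type} [TopologicalSpace X] [UCompactlyGeneratedSpace.{0} X]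
    [TopologicalSpace L] [CompactSpace L] [T2Space L] :
    UCompactlyGeneratedSpace.{0} (L × X) :=
  cg_of_isQuotientMap (Homeomorph.prodComm X L).isQuotientMap

/-- Morphisms of compactly generated spaces are continuous maps. -/
def homEquiv (A B : CompactlyGenerated.{0, 0}) : (A ⟶ B) ≃ C(A, B) where
  toFun f := f.hom.hom
  invFun f := ConcreteCategory.ofHom f
  left_inv _ := rfl
  right_inv _ := rfl

end Vale.Agent.P259.Final
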