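import Vale.Agent.P259.Final.Inverse
import Vale.Agent.P259.Five.Cells

/-! The cells theorem in the form used for the inverse. -/

noncomputable section

open CategoryTheory

namespace Vale.Agent.P259.Final

variable {C : GlobExt}

/-- The discs of the spaces of globular sums, by suspension. -/
def betaOf (s : Shape C) : Beta C where
  β := s.beta
  β_zero _ := rfl
  β_src := s.beta_src
  β_tgt := s.beta_tgt

theorem zero_of_shape (hC : IsCoherator C) (s : Shape C) : Beta.Zero (C := C) :=
  fun X => s.W_zero hC X

theorem succ_of_shape (hC : IsCoherator C) (s : Shape C)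
    (hσ : ∀ X x y, Top.WeakEq (s.sig X x y)) : (betaOf s).Succ :=
  fun X n c c' h => s.W_succ hC hσ n X c c' h

end Vale.Agent.P259.Final
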