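import Vale.Agent.P259.Final.Bridge

/-!
# The weak equivalences of the zigzag

From the cells theorem, a natural homotopy joining the two legs makes the right leg a weak
equivalence, and a retraction of the cell maps up to homotopy makes the evaluation one.
-/

noncomputable section

open CategoryTheory Function unitInterval

namespace Vale.Agent.P259.Final

open Disc

variable {C : GlobExt}

theorem pull_comp (X : Gpd C) {l m n : ℕ} (g : C.Hom (disc l) (disc m))
    (h : C.Hom (disc m) (disc n)) (u : X.cells n) :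
    X.pull (C.comp g h) u = X.pull g (X.pull h u) :=
  ConcreteCategory.congr_hom (X.obj.map_comp
    (Quiver.Hom.op (show C.ob (disc m) ⟶ C.ob (disc n) from h))
    (Quiver.Hom.op (show C.ob (disc l) ⟶ C.ob (disc m) from g))) u

theorem pull_id (X : Gpd C) {n : ℕ} (u : X.cells n) : X.pull (C.id (disc n)) u = u :=
  ConcreteCategory.congr_hom (X.obj.map_id _) u

theorem s_idCell (X : Gpd C) (κ : IdLift C) (x : X.cells 0) (n : ℕ) :
    X.s (X.idCell κ x (n + 1)) = X.idCell κ x n :=
  (pull_comp X _ _ _).symm.trans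
    ((congrArg (fun g => X.pull g (X.idCell κ x n)) (κ n).2.1).trans (pull_id X _))

theorem t_idCell (X : Gpd C) (κ : IdLift C) (x : X.cells 0) (n : ℕ) :
    X.t (X.idCell κ x (n + 1)) = X.idCell κ x n :=
  (pull_comp X _ _ _).symm.trans
    ((congrArg (fun g => X.pull g (X.idCell κ x n)) (κ n).2.2).trans (pull_id X _))

/-- The identity cell as a loop. -/
def idLoop (X : Gpd C) (κ : IdLift C) (x : X.cells 0) (n : ℕ) : X.Loops κ n x :=
  ⟨X.idCell κ x (n + 1), s_idCell X κ x n, t_idCell X κ x n⟩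

theorem app_s {X Z : Gpd C} (p : Z ⟶ X) {n : ℕ} (z : Z.cells (n + 1)) :
    X.s (Gpd.app p z) = Gpd.app p (Z.s z) :=
  (Gpd.app_pull p _ z).symm

theorem app_t {X Z : Gpd C} (p : Z ⟶ X) {n : ℕ} (z : Z.cells (n + 1)) :
    X.t (Gpd.app p z) = Gpd.app p (Z.t z) :=
  (Gpd.app_pull p _ z).symm

/-- Cells of `X` realised by discs in `Y`, with the cells theorem. -/
structure CellMaps (X : Gpd C) (Y : Space) where
  /-- The disc of a cell. -/
  cell : ∀ {n}, X.cells n → C(Dn n, Y)
  cell_src : ∀ {n} (u : X.cells (n + 1)) (x : Dn n), cell u (source x) = cell (X.s u) x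
  cell_tgt : ∀ {n} (u : X.cells (n + 1)) (x : Dn n), cell u (target x) = cell (X.t u) x
  inj₀ : ∀ x y : X.cells 0, Joined (cell x default) (cell y default) → X.Connected x y
  surj₀ : ∀ b : Y, ∃ x : X.cells 0, Joined (cell x default) b
  inj : ∀ {n} (u v : X.cells (n + 1)), X.s u = X.s v → X.t u = X.t v →
    HRel (cell u) (cell v) → X.Connected u v
  surj : ∀ {n} (c : X.cells n) (F : C(Dn (n + 1), Y)), (∀ x, F (source x) = cell c x) →
    (∀ x, F (target x) = cell c x) →
    ∃ u : X.cells (n + 1), X.s u = c ∧ X.t u = c ∧ HRel (cell u) F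

namespace CellMaps

variable {X : Gpd C} {Y : Space} (M : CellMaps X Y)

theorem hRel_of_connected {n : ℕ} {u v : X.cells n} (h : X.Connected u v) :
    HRel (M.cell u) (M.cell v) := by
  obtain ⟨w, rfl, rfl⟩ := h
  exact Disc.Conn.hRel ⟨M.cell w, M.cell_src w, M.cell_tgt w⟩

theorem hRel_of_class_eq {κ : IdLift C} {n : ℕ} {x : X.cells 0} {u v : X.Loops κ n x}
    (h : (Quot.mk _ u : X.π κ n x) = Quot.mk _ v) : HRel (M.cell u.1) (M.cell v.1) := by
  have e := Quot.eqvGen_exact h
  clear h
  induction e with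
  | rel _ _ h => exact M.hRel_of_connected h
  | refl _ => exact HRel.refl _
  | symm _ _ _ ih => exact ih.symm
  | trans _ _ _ _ _ ih ih' => exact ih.trans ih'

theorem cell_loop {κ : IdLift C} {n : ℕ} {x : X.cells 0} (u : X.Loops κ n x) (z : Sn (n + 1)) :
    M.cell u.1 (Disc.incl z) = M.cell (X.idCell κ x (n + 1)) (Disc.incl z) := by
  rcases mem_hemisphere z with ⟨y, rfl⟩ | ⟨y, rfl⟩
  · show M.cell u.1 (source y) = M.cell _ (source y)
    rw [M.cell_src, M.cell_src, u.2.1, s_idCell]
  · show M.cell u.1 (target y) = M.cell _ (target y)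
    rw [M.cell_tgt, M.cell_tgt, u.2.2, t_idCell]

/-- A disc with the boundary of an identity cell comes from a loop. -/
theorem exists_loop (κ : IdLift C) {n : ℕ} (x : X.cells 0) (F : C(Dn (n + 1), Y))
    (hF : ∀ z, F (Disc.incl z) = M.cell (X.idCell κ x (n + 1)) (Disc.incl z)) :
    ∃ u : X.Loops κ n x, HRel (M.cell u.1) F := by
  obtain ⟨u, hs, ht, h⟩ := M.surj (X.idCell κ x n) F
    (fun y => (hF (sourceS y)).trans ((M.cell_src _ y).trans (by rw [s_idCell])))
    (fun y => (hF (targetS y)).trans ((M.cell_tgt _ y).trans (by rw [t_idCell])))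
  exact ⟨⟨u, hs, ht⟩, h⟩

end CellMaps

variable (a : Action C)

/-- A natural homotopy from the cell maps of the left leg to the right leg. -/
structure Legs {X Z : Gpd C} {Y : Space} (M : CellMaps X Y) (p : Z ⟶ X)
    (q : Z ⟶ (Pi a).obj Y) where
  /-- The homotopy of a cell. -/
  hom : ∀ {n}, Z.cells n → C(Dn n × I, Y)
  hom_zero : ∀ {n} (z : Z.cells n) (x : Dn n), hom z (x, 0) = M.cell (Gpd.app p z) x
  hom_one : ∀ {n} (z : Z.cells n) (x : Dn n), hom z (x, 1) = toDisc (Gpd.app q z) x
  hom_src : ∀ {n} (z : Z.cells (n + 1)) (x : Dn n) (t : I),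
    hom z (source x, t) = hom (Z.s z) (x, t)
  hom_tgt : ∀ {n} (z : Z.cells (n + 1)) (x : Dn n) (t : I),
    hom z (target x, t) = hom (Z.t z) (x, t)
  /-- A path starting at the point of a zero cell is the homotopy of a zero cell. -/
  lift₀ : ∀ (x : X.cells 0) (γ : C(I, Y)), γ 0 = M.cell x default →
    ∃ z : Z.cells 0, Gpd.app p z = x ∧ pt (Gpd.app q z) = γ 1

variable {a} {X Z : Gpd C} {Y : Space} {M : CellMaps X Y} {p : Z ⟶ X} {q : Z ⟶ (Pi a).obj Y}

namespace Legs

variable (L : Legs a M p q)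

include L in
theorem surjective : Surjective (Gpd.app q (n := 0)) := fun c => by
  obtain ⟨x, ⟨γ⟩⟩ := M.surj₀ (pt c)
  obtain ⟨z, -, hz⟩ := L.lift₀ x γ.toContinuousMap γ.source
  refine ⟨z, toDisc_injective (ContinuousMap.ext fun y => ?_)⟩
  rw [toDisc_zero, toDisc_zero, hz]
  exact γ.target

/-- The homotopy on the boundary of a loop. -/
def side (κ : IdLift C) (z : Z.cells 0) (n : ℕ) : C(Sn (n + 1) × I, Y) :=
  (L.hom (Z.idCell κ z (n + 1))).comp ((Disc.incl.comp ContinuousMap.fst).prodMk ContinuousMap.snd)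

theorem hom_loop {κ : IdLift C} {z : Z.cells 0} {n : ℕ} (u : Z.Loops κ n z) (s : Sn (n + 1))
    (t : I) : L.hom u.1 (Disc.incl s, t) = L.side κ z n (s, t) := by
  rcases mem_hemisphere s with ⟨y, rfl⟩ | ⟨y, rfl⟩
  · show L.hom u.1 (source y, t) = L.hom _ (source y, t)
    rw [L.hom_src, L.hom_src, u.2.1, s_idCell]
  · show L.hom u.1 (target y, t) = L.hom _ (target y, t)
    rw [L.hom_tgt, L.hom_tgt, u.2.2, t_idCell]

theorem transports {κ : IdLift C} {z : Z.cells 0} {n : ℕ} (u : Z.Loops κ n z) :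
    Transports (L.side κ z n) (M.cell (Gpd.app p u.1)) (toDisc (Gpd.app q u.1)) :=
  ⟨L.hom u.1, L.hom_zero u.1, L.hom_one u.1, L.hom_loop u⟩

theorem side_zero (κ : IdLift C) (z : Z.cells 0) (n : ℕ) (s : Sn (n + 1)) :
    L.side κ z n (s, 0) = M.cell (X.idCell κ (Gpd.app p z) (n + 1)) (Disc.incl s) := by
  show L.hom _ (Disc.incl s, 0) = _
  rw [L.hom_zero, Gpd.app_idCell]

theorem side_one (κ : IdLift C) (z : Z.cells 0) (n : ℕ) (s : Sn (n + 1)) :
    L.side κ z n (s, 1) = pt (Gpd.app q z) := by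
  show L.hom _ (Disc.incl s, 1) = _
  rw [L.hom_one, Gpd.app_idCell, toDisc_idCell]

/-- A loop of `Π_∞ Y` is a transport of a loop of `X`. -/
theorem exists_transports {κ : IdLift C} {z : Z.cells 0} {n : ℕ}
    (d : ((Pi a).obj Y).Loops κ n (Gpd.app q z)) :
    ∃ (u : X.Loops κ n (Gpd.app p z)) (F : C(Dn (n + 1), Y)),
      HRel (M.cell u.1) F ∧ Transports (L.side κ z n) F (toDisc d.1) := by
  let h' : C(Sn (n + 1) × I, Y) :=
    (L.side κ z n).comp ⟨fun w => (w.1, σ w.2), by fun_prop⟩
  obtain ⟨F, hF⟩ := Transports.exists h' (toDisc d.1) fun s => by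
    show L.side κ z n (s, σ 0) = _
    rw [symm_zero, L.side_one, toDisc_loop]
  have hb : ∀ s, F (Disc.incl s) = M.cell (X.idCell κ (Gpd.app p z) (n + 1)) (Disc.incl s) := by
    intro s
    obtain ⟨H, -, H1, Hb⟩ := hF
    rw [← H1, Hb]
    show L.side κ z n (s, σ 1) = _
    rw [symm_one, L.side_zero]
  obtain ⟨u, hu⟩ := M.exists_loop κ _ F hb
  refine ⟨u, F, hu, ?_⟩
  have e : h'.comp ⟨fun w : Sn (n + 1) × I => (w.1, σ w.2), by fun_prop⟩ = L.side κ z n := by
    ext w; simp [h']
  exact e ▸ hF.symm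

include L in
/-- The right leg is a weak equivalence if the left one is. -/
theorem q_weq (κ : IdLift C) (hp : weqGpd κ p) : weqGpd κ q := by
  have hj : ∀ z : Z.cells 0, Joined (M.cell (Gpd.app p z) default) (pt (Gpd.app q z)) := fun z =>
    ⟨⟨(L.hom z).comp ((ContinuousMap.const I default).prodMk (ContinuousMap.id I)),
      L.hom_zero z _, L.hom_one z _⟩⟩
  refine ⟨⟨fun c d h => ?_, fun e => ?_⟩, fun n z => ⟨fun c d h => ?_, fun e => ?_⟩⟩
  · induction c using Quot.ind with | _ z => ?_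
    induction d using Quot.ind with | _ z' => ?_
    have h' : Joined (pt (Gpd.app q z)) (pt (Gpd.app q z')) :=
      Quotient.exact (congrArg pi0Hom h)
    exact hp.1.1 (Quot.sound (M.inj₀ _ _ (((hj z).trans h').trans (hj z').symm)))
  · induction e using Quot.ind with | _ c => ?_
    obtain ⟨z, rfl⟩ := L.surjective c
    exact ⟨Quot.mk _ z, rfl⟩
  · induction c using Quot.ind with | _ u => ?_
    induction d using Quot.ind with | _ v => ?_
    have h' : HRel (toDisc (Gpd.app q u.1)) (toDisc (Gpd.app q v.1)) :=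
      (connected_iff_hRel _ _).1 (connected_of_class_eq h)
    refine (hp.2 n z).1 (Quot.sound (M.inj _ _ ?_ ?_
      (Transports.unique h' (L.transports u).symm (L.transports v).symm)))
    · rw [app_s, app_s, u.2.1, v.2.1]
    · rw [app_t, app_t, u.2.2, v.2.2]
  · induction e using Quot.ind with | _ d => ?_
    obtain ⟨u, F, hu, hF⟩ := L.exists_transports d
    obtain ⟨c, hc⟩ := (hp.2 n z).2 (Quot.mk _ u)
    induction c using Quot.ind with | _ w => ?_
    refine ⟨Quot.mk _ w, Quot.sound ((connected_iff_hRel _ _).2 ?_)⟩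
    exact Transports.unique ((M.hRel_of_class_eq hc).trans hu) (L.transports w) hF

end Legs

/-- The homotopies of discs used for the evaluation. -/
structure DiscHom where
  /-- The homotopy. -/
  K : ∀ {n}, C(Dn n × I, Dn n)
  K_one : ∀ {n} (x : Dn n), K (x, 1) = x
  K_src : ∀ {n} (x : Dn n) (t : I), K (source x, t) = source (K (x, t))
  K_tgt : ∀ {n} (x : Dn n) (t : I), K (target x, t) = target (K (x, t))

/-- A map retracting the cell maps up to homotopy is a weak equivalence. -/
theorem eval_weq {Y' : Space} (N : CellMaps ((Pi a).obj Y') Y) {p' : Z ⟶ (Pi a).obj Y'}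
    (L : Legs a N p' q) (κ : IdLift C) (f : Y ⟶ Y') (D : DiscHom)
    (hf : ∀ {n} (u : ((Pi a).obj Y').cells n) (x : Dn n),
      f.hom.hom (N.cell u x) = toDisc u (D.K (x, 0))) : weqTop f := by
  refine Pi_reflects (a := a) κ f ?_
  have hf₀ : ∀ u : ((Pi a).obj Y').cells 0, f.hom.hom (N.cell u default) = pt u := fun u =>
    (hf u default).trans (toDisc_zero u _)
  refine ⟨⟨fun c d h => ?_, fun e => ?_⟩, fun n c => ?_⟩
  · induction c using Quot.ind with | _ c => ?_
    induction d using Quot.ind with | _ d => ?_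
    have h' : Joined (f.hom.hom (pt c)) (f.hom.hom (pt d)) :=
      Quotient.exact (congrArg pi0Hom h)
    obtain ⟨x, hx⟩ := N.surj₀ (pt c)
    obtain ⟨y, hy⟩ := N.surj₀ (pt d)
    have hxy : ((Pi a).obj Y').Connected x y := by
      rw [connected_zero_iff, ← hf₀, ← hf₀]
      exact ((hx.map f.hom.hom.continuous).trans h').trans (hy.map f.hom.hom.continuous).symm
    obtain ⟨H, H0, H1, -⟩ := N.hRel_of_connected hxy
    refine Quot.sound ((connected_zero_iff c d).2 ((hx.symm.trans ?_).trans hy))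
    exact ⟨⟨H.comp ((ContinuousMap.const I default).prodMk (ContinuousMap.id I)), H0 _, H1 _⟩⟩
  · induction e using Quot.ind with | _ u => ?_
    refine ⟨Quot.mk _ (ofDisc (ContinuousMap.const _ (N.cell u default))),
      congrArg (Quot.mk _) (toDisc_injective (ContinuousMap.ext fun x => ?_))⟩
    rw [toDisc_zero, toDisc_zero]
    exact hf₀ u
  obtain ⟨z, rfl⟩ := L.surjective c
  -- the evaluation on a loop is homotopic to the loop
  have hK : ∀ u : ((Pi a).obj Y').Loops κ n (Gpd.app p' z),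
      HRel (f.hom.hom.comp (N.cell u.1)) (toDisc u.1) := fun u => by
    refine ⟨(toDisc u.1).comp D.K, fun x => (hf u.1 x).symm,
      fun x => congrArg (toDisc u.1) (D.K_one x), fun s t => ?_⟩
    show toDisc u.1 (D.K (Disc.incl s, t)) = f.hom.hom (N.cell u.1 (Disc.incl s))
    rw [hf]
    rcases mem_hemisphere s with ⟨y, rfl⟩ | ⟨y, rfl⟩
    · show toDisc u.1 (D.K (source y, t)) = toDisc u.1 (D.K (source y, 0))
      simp only [D.K_src, ← toDisc_s, u.2.1, toDisc_idCell]
    · show toDisc u.1 (D.K (target y, t)) = toDisc u.1 (D.K (target y, 0))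
      simp only [D.K_tgt, ← toDisc_t, u.2.2, toDisc_idCell]
  refine ⟨fun b b' h => ?_, fun e => ?_⟩
  · induction b using Quot.ind with | _ d => ?_
    induction b' using Quot.ind with | _ d' => ?_
    have h' : HRel (f.hom.hom.comp (toDisc d.1)) (f.hom.hom.comp (toDisc d'.1)) :=
      (connected_iff_hRel _ _).1 (connected_of_class_eq h)
    obtain ⟨u, F, hu, hF⟩ := L.exists_transports d
    obtain ⟨u', F', hu', hF'⟩ := L.exists_transports d'
    have hFF := Transports.unique h' (hF.map f.hom.hom).symm (hF'.map f.hom.hom).symm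
    have hm : ∀ {G G' : C(Dn (n + 1), Y)}, HRel G G' →
        HRel (f.hom.hom.comp G) (f.hom.hom.comp G') :=
      fun hG => ((HRel.conn hG).map f.hom.hom).hRel
    have hc : ((Pi a).obj Y').Connected u.1 u'.1 := (connected_iff_hRel _ _).2
      ((hK u).symm.trans ((((hm hu).trans hFF).trans (hm hu').symm).trans (hK u')))
    exact Quot.sound ((connected_iff_hRel _ _).2 (Transports.unique
      ((hu.symm.trans (N.hRel_of_connected hc)).trans hu') hF hF'))
  · induction e using Quot.ind with | _ e => ?_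
    let k : C(Sn (n + 1) × I, Y') := f.hom.hom.comp (L.side κ z n)
    have hk0 : ∀ s, k (s, 0) = pt (Gpd.app p' z) := fun s => by
      show f.hom.hom (L.side κ z n (s, 0)) = _
      rw [L.side_zero, hf, toDisc_idCell]
    have hk1 : ∀ s, k (s, 1) = f.hom.hom (pt (Gpd.app q z)) := fun s =>
      congrArg f.hom.hom (L.side_one κ z n s)
    let k' : C(Sn (n + 1) × I, Y') := k.comp ⟨fun w => (w.1, σ w.2), by fun_prop⟩
    obtain ⟨E, hE⟩ := Transports.exists k' (toDisc e.1) fun s => by
      show k (s, σ 0) = _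
      rw [symm_zero, hk1, toDisc_loop, pt_app]
    have hEb : ∀ s, E (Disc.incl s) = pt (Gpd.app p' z) := fun s => by
      obtain ⟨H, -, H1, Hb⟩ := hE
      rw [← H1, Hb]
      show k (s, σ 1) = _
      rw [symm_one, hk0]
    let u : ((Pi a).obj Y').Loops κ n (Gpd.app p' z) := ofDiscLoop E hEb
    obtain ⟨G, hG⟩ := Transports.exists (L.side κ z n) (N.cell u.1) fun s => by
      rw [L.side_zero, N.cell_loop]
    have hGb : ∀ s, G (Disc.incl s) = pt (Gpd.app q z) := fun s => by
      obtain ⟨H, -, H1, Hb⟩ := hG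
      rw [← H1, Hb, L.side_one]
    refine ⟨Quot.mk _ (ofDiscLoop G hGb), Quot.sound ((connected_iff_hRel _ _).2 ?_)⟩
    have hE' : Transports k E (toDisc e.1) := by
      have h2 : k'.comp ⟨fun w : Sn (n + 1) × I => (w.1, σ w.2), by fun_prop⟩ = k := by
        ext w; simp [k']
      exact h2 ▸ hE.symm
    exact Transports.unique (hK u) (hG.map f.hom.hom) hE'

end Vale.Agent.P259.Final
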