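import Vale.Agent.P259.Final.Assembly
import Vale.Agent.P259.Final.Zigzag
import Vale.Agent.P259.Ext.Eval
import Vale.Agent.P259.Disc.HomFamily
import Vale.Agent.P259.Theta

/-!
# The inverse of the fundamental ∞-groupoid

From the discs in the spaces of globular sums, the cells theorem, the zigzag and the evaluation,
the functor `G` is inverse to `Π_∞` after localisation.
-/

noncomputable section

open CategoryTheory unitInterval

namespace Vale.Agent.P259.Final

open Disc

variable {C : GlobExt}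

/-- Discs in the spaces of globular sums, compatible with the hemispheres. -/
structure Beta (C : GlobExt) where
  /-- The disc. -/
  β : ∀ n, C(Dn n, TS C (disc n))
  β_zero : ∀ x, β 0 x = vtx (repGpd C (disc 0)) (C.id (disc 0))
  β_src : ∀ n (x : Dn n), β (n + 1) (source x) = tMap (C.ι (P259.src n)) (β n x)
  β_tgt : ∀ n (x : Dn n), β (n + 1) (target x) = tMap (C.ι (P259.tgt n)) (β n x)

namespace Beta

variable (B : Beta C)

/-- The cells theorem in degree zero. -/
def Zero : Prop :=
  ∀ X : Gpd C, (∀ x y : X.cells 0, Joined (vtx X x) (vtx X y) → X.Connected x y) ∧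
    ∀ z : GX X, ∃ x : X.cells 0, Joined (vtx X x) z

/-- The cells theorem in positive degrees. -/
def Succ : Prop :=
  ∀ (X : Gpd C) (n : ℕ) (c c' : X.cells n), Gpd.Par X c c' →
    (∀ u u' : X.cells (n + 1), X.s u = c → X.t u = c' → X.s u' = c → X.t u' = c' →
      HRel ((gMap X u).comp (B.β (n + 1))) ((gMap X u').comp (B.β (n + 1))) → X.Connected u u') ∧
    ∀ F : C(Dn (n + 1), GX X),
      (∀ p, F (source p) = gMap X c (B.β n p)) → (∀ p, F (target p) = gMap X c' (B.β n p)) →
      ∃ u : X.cells (n + 1), X.s u = c ∧ X.t u = c' ∧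
        HRel ((gMap X u).comp (B.β (n + 1))) F

theorem par_refl (X : Gpd C) : ∀ {n : ℕ} (c : X.cells n), Gpd.Par X c c
  | 0, _ => trivial
  | _ + 1, _ => ⟨rfl, rfl⟩

theorem par_faces (X : Gpd C) {n : ℕ} (u : X.cells (n + 1)) : Gpd.Par X (X.s u) (X.t u) := by
  cases n with
  | zero => trivial
  | succ n =>
    have key : ∀ g h : C.Hom (disc n) (disc (n + 2)), g = h → X.pull g u = X.pull h u :=
      fun _ _ e => e ▸ rfl
    constructor
    · show X.pull _ (X.pull _ u) = X.pull _ (X.pull _ u)
      rw [← pull_comp, ← pull_comp]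
      refine key _ _ ?_
      rw [← C.ι_comp, ← C.ι_comp, GlobSum.src_src]
    · show X.pull _ (X.pull _ u) = X.pull _ (X.pull _ u)
      rw [← pull_comp, ← pull_comp]
      refine key _ _ ?_
      rw [← C.ι_comp, ← C.ι_comp, GlobSum.tgt_src]

theorem cell_zero (X : Gpd C) (x : X.cells 0) (p : Dn 0) : gMap X x (B.β 0 p) = vtx X x := by
  rw [B.β_zero]
  show Real.bmap (yMap X x) (Real.vertex _) = _
  rw [Real.bmap_vertex]
  exact congrArg Real.vertex (El.mk_congr (X.act_id x))

/-- The cell maps of a groupoid. -/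
def cellMaps (h0 : Zero (C := C)) (hs : B.Succ) (X : Gpd C) :
    CellMaps X ((Ext.gFunctor C).obj X) where
  cell {n} u := (gMap X u).comp (B.β n)
  cell_src u x := by
    show gMap X u (B.β _ (source x)) = _
    rw [B.β_src]
    exact gMap_tMap X (C.ι (P259.src _)) u _
  cell_tgt u x := by
    show gMap X u (B.β _ (target x)) = _
    rw [B.β_tgt]
    exact gMap_tMap X (C.ι (P259.tgt _)) u _
  inj₀ x y h := by
    refine (h0 X).1 x y ?_
    rw [← B.cell_zero X x default, ← B.cell_zero X y default]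
    exact h
  surj₀ b := by
    obtain ⟨x, hx⟩ := (h0 X).2 b
    refine ⟨x, ?_⟩
    rw [← B.cell_zero X x default] at hx
    exact hx
  inj {n} u v hu hv h := (hs X n (X.s u) (X.t u) (par_faces X u)).1 u v rfl rfl hu.symm hv.symm h
  surj {n} c F hs' ht := (hs X n c c (par_refl X c)).2 F hs' ht

end Beta

theorem Beta.exists_discHom (B : Beta C) (a : Action C) (K : Ext.Contr C) :
    ∃ D : DiscHom, ∀ (n : ℕ) (x : Dn n),
      Ext.rho a K (P259.disc n) (B.β n x) = rmk (P259.disc n) 0 (D.K (x, 0)) := by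
  let c : ∀ n, C(Dn n, Dn n) := fun n =>
    (⟨discHomeo n, (discHomeo n).continuous⟩ : C(Real (P259.disc n), Dn n)).comp
      ((Ext.rho a K (P259.disc n)).comp (B.β n))
  have hc : ∀ n x, Ext.rho a K (P259.disc n) (B.β n x) = rmk (P259.disc n) 0 (c n x) :=
    fun n x => ((discHomeo n).symm_apply_apply _).symm
  have key : ∀ (n : ℕ) (m : Dn n → Dn (n + 1)) (g : P259.disc n ⟶ P259.disc (n + 1)),
      (∀ x, B.β (n + 1) (m x) = tMap (C.ι g) (B.β n x)) →
      (∀ x, rmap g (rmk (P259.disc n) 0 x) = rmk (P259.disc (n + 1)) 0 (m x)) →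
      ∀ x, c (n + 1) (m x) = m (c n x) := by
    intro n m g hβ hg x
    show discHomeo (n + 1) (Ext.rho a K _ (B.β (n + 1) (m x))) = _
    rw [hβ, Ext.rho_tMap, hc, a.map_ι]
    exact (congrArg (discHomeo (n + 1)) (hg (c n x))).trans
      ((discHomeo (n + 1)).apply_symm_apply (m (c n x)))
  obtain ⟨L, L0, L1, Ls, Lt⟩ := Disc.exists_discHom c
    (fun n => key n source _ (B.β_src n) rmap_src)
    (fun n => key n target _ (B.β_tgt n) rmap_tgt)
  exact ⟨⟨fun {n} => L n, fun {n} => L1 n, fun {n} => Ls n, fun {n} => Lt n⟩,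
    fun n x => (hc n x).trans (congrArg (rmk (P259.disc n) 0) (L0 n x).symm)⟩

/-- The natural data of the zigzag and of the evaluation. -/
structure Data (a : Action C) (κ : IdLift C) (B : Beta C) where
  h0 : Beta.Zero (C := C)
  hs : B.Succ
  /-- The middle of the zigzag. -/
  Z : Gpd C ⥤ Gpd C
  /-- The left leg. -/
  p : Z ⟶ 𝟭 (Gpd C)
  /-- The right leg. -/
  q : Z ⟶ Ext.gFunctor C ⋙ Pi a
  p_weq : ∀ X, weqGpd κ (p.app X)
  /-- The homotopy between the legs. -/
  legs : ∀ X, Legs a (B.cellMaps h0 hs X) (p.app X) (q.app X)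

/-- The inverse exists. -/
theorem Data.nonempty_inverse {a : Action C} {κ : IdLift C} {B : Beta C} (d : Data a κ B) :
    Nonempty (Inverse a.discFunctor κ) := by
  obtain ⟨K⟩ := Ext.nonempty_contr C
  obtain ⟨D, hD⟩ := B.exists_discHom a K
  exact ⟨{
    preserves := fun f hf => Pi_preserves κ f hf
    reflects := fun f hf => Pi_reflects κ f hf
    G := Ext.gFunctor C
    Z := d.Z
    p := d.p
    q := d.q
    r := Ext.evalNat a K
    p_weq := d.p_weq
    q_weq := fun X => (d.legs X).q_weq κ (d.p_weq X)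
    q_surjective := fun X => (d.legs X).surjective
    r_weq := fun Y => eval_weq (B.cellMaps d.h0 d.hs ((Pi a).obj Y)) (d.legs _) κ
      ((Ext.evalNat a K).app Y) D fun {n} u x =>
        (Ext.eval_gMap a K (Y := Y) (S := P259.disc n) u (B.β n x)).trans
          (congrArg (show realSpace (P259.disc n) ⟶ Y from u).hom.hom (hD n x)) }⟩

end Vale.Agent.P259.Final
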