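import Vale.Agent.P259.Final.Cells
import Vale.Agent.P259.Ext.BetaR
import Vale.Agent.P259.Ext.Zig
import Vale.Agent.P259.Disc.Functor

/-! The inverse exists for every action of a coherator on discs, given the suspension theorem. -/

noncomputable section

open CategoryTheory unitInterval

namespace Vale.Agent.P259.Final

open Disc

variable {C : GlobExt}

/-- The zigzag data. -/
theorem exists_data (hC : IsCoherator C) (a : Action C) (κ : IdLift C) (s : Shape C)
    (hσ : ∀ X x y, Top.WeakEq (s.sig X x y)) : Nonempty (Data a κ (betaOf s)) := by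
  obtain ⟨β, hβd, hβn⟩ := Ext.exists_betaR s.beta s.beta_src s.beta_tgt
  let b : Ext.Beta C := ⟨β, fun {A B} f p => hβn A B f p⟩
  obtain ⟨c⟩ := Ext.exists_cylAction b a hC
  have hcell : ∀ (X : Gpd C) {n : ℕ} (u : X.cells n) (x : Dn n),
      Ext.cellDisc b X u x = gMap X u (s.beta n x) :=
    fun X {n} u x => congrArg (gMap X (S := P259.disc n) u) (hβd n x)
  exact ⟨{
    h0 := zero_of_shape hC s
    hs := succ_of_shape hC s hσ
    Z := Ext.zFunctor c
    p := Ext.pNat c
    q := Ext.qNat c
    p_weq := Ext.p_weq c κ
    legs := fun X =>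
      { hom := fun {n} z => Ext.zHom c X z
        hom_zero := fun z x => (Ext.zHom_zero c z x).trans (hcell X _ x)
        hom_one := fun _ _ => rfl
        hom_src := fun z x t => Ext.zHom_src c z x t
        hom_tgt := fun z x t => Ext.zHom_tgt c z x t
        lift₀ := fun x γ hγ => by
          obtain ⟨z, hz, hzq⟩ := Ext.exists_zCell c x (γ.comp ContinuousMap.snd) fun p => by
            refine hγ.trans ?_
            rw [hcell X x p, Subsingleton.elim p default]
            rfl
          exact ⟨z, hz, hzq (default, 1)⟩ } }⟩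

/-- The inverse exists. -/
theorem nonempty_inverse (hC : IsCoherator C) (a : Action C) (κ : IdLift C) (s : Shape C)
    (hσ : ∀ X x y, Top.WeakEq (s.sig X x y)) : Nonempty (Inverse a.discFunctor κ) :=
  (exists_data hC a κ s hσ).elim Data.nonempty_inverse

/-- The question follows from the suspension theorem. -/
theorem Q1_of_sig
    (h : ∀ C : GlobExt, IsCoherator C → ∃ s : Shape C, ∀ X x y, Top.WeakEq (s.sig X x y)) :
    Q1 :=
  Q1_of_inverse fun C hC => by
    obtain ⟨s, hs⟩ := h C hC
    obtain ⟨a⟩ := Disc.exists_action hC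
    exact ⟨a.discFunctor, fun κ => nonempty_inverse hC a κ s hs⟩

end Vale.Agent.P259.Final
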