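import Vale.Agent.P259.Final.Main
import Vale.Agent.P259.Five.Key

/-! The homotopy hypothesis. -/

namespace Vale.Agent.P259.Final

/-- Q1. -/
theorem q1 : Q1 :=
  Q1_of_sig fun C hC => ⟨shape hC, fun X x y => sig_weq (shape hC) hC.2 X x y⟩

end Vale.Agent.P259.Final
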